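import Vale.Agent.Lib.P052.Data
import Vale.Agent.Lib.P052.DataC

namespace Vale.Agent.Lib.P052

noncomputable section

/-- `allBelow p n` says that `p i` holds for all `i < n`; written with the recursor directly so that the kernel evaluates it quickly. -/
def allBelow (p : Nat → Bool) (n : Nat) : Bool :=
  Nat.rec true (fun i ih => Bool.rec false ih (p i)) n

/-- `p (lo + i)` for all `i < n`. -/
def allRange (p : Nat → Bool) (lo n : Nat) : Bool := allBelow (fun i => p (Nat.add lo i)) n

/-- mask of the lowest 3744 bits -/
def rowMask : Nat := Nat.sub (Nat.pow 2 3744) 1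

/-- the row of the vertex with bit position `l = 9 a`, as a number with bits at positions `9 b` -/
def rowAtBit (l : Nat) : Nat := Nat.land (Nat.shiftRight adjBig (Nat.mul 416 l)) rowMask

def rowN (a : Nat) : Nat := rowAtBit (Nat.mul 9 a)

def adjB (a b : Nat) : Bool := Nat.testBit (rowN a) (Nat.mul 9 b)

/-- all set bits lie in positions divisible by 9 and below `9 * n` -/
def strideMask (n : Nat) : Nat := Nat.rec 0 (fun _ ih => Nat.add (Nat.mul 512 ih) 1) n

def mask416 : Nat := strideMask 416

/-- the vertices below `n` -/
def lowMask (n : Nat) : Nat := strideMask n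

/-- the vertices in the range from `m` to `m + n` -/
def blockMask (m n : Nat) : Nat := Nat.shiftLeft (strideMask n) (Nat.mul 9 m)

def srgEntry (a b : Nat) : Nat :=
  Bool.rec (Bool.rec 20 36 (adjB a b)) 100 (Nat.beq a b)

def srgRow (a : Nat) : Bool :=
  Bool.rec false
    (allBelow (fun b => Nat.beq (Nat.mod (Nat.land (rowN a) (rowN b)) 511) (srgEntry a b)) 416)
    (Nat.beq (Nat.land (rowN a) mask416) (rowN a))

def symRow (a : Nat) : Bool :=
  Bool.rec (allBelow (fun b => Bool.rec (Bool.rec true false (adjB b a)) (Bool.rec false true (adjB b a)) (adjB a b)) 416)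
    false (adjB a a)

/-- compact row of a vertex among the vertices 0 to 320 -/
def compactMask : Nat := Nat.sub (Nat.pow 2 321) 1
def cRow (a : Nat) : Nat := Nat.land (Nat.shiftRight compactBig (Nat.mul 321 a)) compactMask

/-- adjacency read from the compact rows -/
def adjC (a b : Nat) : Bool := Nat.testBit (cRow a) b

/-- position of the top bit of a number below `2 ^ 2 ^ k`, by binary search -/
def topBit (k : Nat) : Nat → Nat :=
  Nat.rec (fun _ => 0)
    (fun k ih x =>
      (fun s => (fun y => Bool.rec (Nat.add s (ih y)) (ih x) (Nat.beq y 0)) (Nat.shiftRight x s))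
        (Nat.pow 2 k))
    k

/-- the loop over the set bits of `cand`, from the top bit down -/
def loopBits (g : Nat → Bool) (fuel : Nat) : Nat → Bool :=
  Nat.rec (fun cand => Nat.beq cand 0)
    (fun _ ih cand =>
      Bool.rec
        ((fun l => (fun r => Bool.rec false (ih r) (g (Nat.land r (cRow l)))) (Nat.mod cand (Nat.pow 2 l))) (topBit 9 cand))
        true
        (Nat.beq cand 0))
    fuel

/-- `noK k cand` says that there are no `k + 1` pairwise adjacent vertices among the set bits of `cand`. -/
def noK (k : Nat) : Nat → Bool :=
  Nat.rec (fun cand => Nat.beq cand 0) (fun _ ih => loopBits ih 321) k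

def cliqueRow (c : Nat) : Bool := noK 4 (Nat.land (Nat.sub (Nat.pow 2 c) 1) (cRow c))

/-- the compact rows agree with the full rows -/
def compactRow (a : Nat) : Bool :=
  allBelow (fun b => Bool.rec (Bool.rec true false (adjB a b)) (Bool.rec false true (adjB a b)) (adjC a b)) 321

/-- number of neighbours of `a` in the first block -/
def n1 (a : Nat) : Nat := if a < 320 then 8 else if a < 352 then 20 else 0
/-- number of neighbours of `a` in the second block -/
def n2 (a : Nat) : Nat := if a < 320 then 8 else if a < 352 then 0 else if a < 384 then 20 else 0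
/-- number of neighbours of `a` in the third block -/
def n3 (a : Nat) : Nat := if a < 320 then 8 else if a < 384 then 0 else 20

def blockRow (a : Nat) : Bool :=
  ((Nat.mod (Nat.land (rowN a) (blockMask 320 32)) 511 == n1 a) &&
    (Nat.mod (Nat.land (rowN a) (blockMask 352 32)) 511 == n2 a) &&
    (Nat.mod (Nat.land (rowN a) (blockMask 384 32)) 511 == n3 a))

end

end Vale.Agent.Lib.P052
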