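import Mathlib
import Vale.Agent.Lib.P052.Check

namespace Vale.Agent.Lib.P052

set_option exponentiation.threshold 4000

theorem strideMask_succ (n : ℕ) : strideMask (n + 1) = 2 ^ 9 * strideMask n + 1 := rfl

theorem testBit_strideMask (n i : ℕ) :
    (strideMask n).testBit i = decide (9 ∣ i ∧ i < 9 * n) := by
  induction n generalizing i with
  | zero =>
    have : strideMask 0 = 0 := rfl
    simp [this]
  | succ n ih =>
    rw [strideMask_succ, Nat.testBit_two_pow_mul_add _ (by norm_num : 1 < 2 ^ 9)]
    by_cases hi : i < 9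
    · rw [if_pos hi]
      rcases Nat.eq_zero_or_pos i with rfl | hpos
      · simp
      · have : (1 : ℕ).testBit i = false := by
          obtain ⟨j, rfl⟩ : ∃ j, i = j + 1 := ⟨i - 1, by omega⟩
          simp [Nat.testBit_succ]
        rw [this]
        symm
        simp only [decide_eq_false_iff_not, not_and, not_lt]
        intro hd
        have := Nat.le_of_dvd hpos hd
        omega
    · rw [if_neg hi, ih]
      congr 1
      apply propext
      constructor
      · rintro ⟨h1, h2⟩
        exact ⟨by omega, by omega⟩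
      · rintro ⟨h1, h2⟩
        exact ⟨by omega, by omega⟩

theorem testBit_blockMask (m n c : ℕ) :
    (blockMask m n).testBit (9 * c) = decide (m ≤ c ∧ c < m + n) := by
  have : blockMask m n = strideMask n <<< (9 * m) := rfl
  rw [this, Nat.testBit_shiftLeft, testBit_strideMask]
  by_cases h : m ≤ c
  · have h1 : 9 * c ≥ 9 * m := by omega
    have h2 : 9 ∣ 9 * c - 9 * m := by omega
    simp only [h1, decide_true, Bool.true_and, h, true_and]
    congr 1
    apply propext
    constructor
    · rintro ⟨_, h3⟩
      omega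
    · intro h3
      exact ⟨h2, by omega⟩
  · have h1 : ¬ 9 * c ≥ 9 * m := by omega
    simp [h1, h]

/-- digit sum modulo 511 for numbers whose bits all lie in positions divisible by 9 -/
theorem mod511_aux (n : ℕ) : ∀ x : ℕ, x < 2 ^ (9 * n) → (∀ i, x.testBit i = true → 9 ∣ i) →
    x % 511 = (∑ c ∈ Finset.range n, (x.testBit (9 * c)).toNat) % 511 := by
  induction n with
  | zero =>
    intro x hx _
    have : x = 0 := by simpa using hx
    simp [this]
  | succ n ih =>
    intro x hx hs
    set y := x / 2 ^ 9 with hy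
    have hyb : ∀ i, y.testBit i = x.testBit (i + 9) := by
      intro i
      rw [hy, Nat.testBit_div_two_pow]
    have hlt : y < 2 ^ (9 * n) := by
      rw [hy]
      apply Nat.div_lt_of_lt_mul
      calc x < 2 ^ (9 * (n + 1)) := hx
        _ = 2 ^ 9 * 2 ^ (9 * n) := by rw [← pow_add]; congr 1; ring
    have hs' : ∀ i, y.testBit i = true → 9 ∣ i := by
      intro i hi
      rw [hyb] at hi
      have := hs _ hi
      exact (Nat.dvd_add_iff_left (dvd_refl 9)).2 this
    have ih' := ih y hlt hs'
    have hlow : x % 2 ^ 9 = (x.testBit 0).toNat := by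
      apply Nat.eq_of_testBit_eq
      intro j
      rw [Nat.testBit_mod_two_pow]
      by_cases hj0 : j = 0
      · subst hj0
        cases hb : x.testBit 0 <;> simp
      · have h0 : ((x.testBit 0).toNat).testBit j = false := by
          obtain ⟨k, rfl⟩ : ∃ k, j = k + 1 := ⟨j - 1, by omega⟩
          cases x.testBit 0 <;> simp [Nat.testBit_succ]
        rw [h0]
        by_cases hj : j < 9
        · have : x.testBit j = false := by
            by_contra hc
            have hd := hs j (by simpa using hc)
            have := Nat.le_of_dvd (by omega) hd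
            omega
          simp [this]
        · simp [hj]
    have hdec : x = 512 * y + (x.testBit 0).toNat := by
      have := Nat.div_add_mod x (2 ^ 9)
      rw [hlow] at this
      rw [← hy] at this
      norm_num at this
      omega
    have hsum : ∑ c ∈ Finset.range (n + 1), (x.testBit (9 * c)).toNat
        = (∑ c ∈ Finset.range n, (y.testBit (9 * c)).toNat) + (x.testBit 0).toNat := by
      rw [Finset.sum_range_succ']
      congr 1
      apply Finset.sum_congr rfl
      intro c _
      rw [hyb]
      congr 2
    rw [hsum]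
    generalize (∑ c ∈ Finset.range n, (y.testBit (9 * c)).toNat) = S at ih' ⊢
    generalize (x.testBit 0).toNat = r at hdec ⊢
    omega

theorem popcount_eq (x : ℕ) (hx : x < 2 ^ 3744) (hs : ∀ i, x.testBit i = true → 9 ∣ i) :
    x % 511 = ∑ c ∈ Finset.range 416, (x.testBit (9 * c)).toNat := by
  rw [mod511_aux 416 x (by simpa using hx) hs]
  apply Nat.mod_eq_of_lt
  calc ∑ c ∈ Finset.range 416, (x.testBit (9 * c)).toNat
      ≤ ∑ _c ∈ Finset.range 416, 1 := by
        apply Finset.sum_le_sum
        intro c _
        cases x.testBit (9 * c) <;> simp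
    _ = 416 := by simp
    _ < 511 := by norm_num

theorem rowAtBit_lt (l : ℕ) : rowAtBit l < 2 ^ 3744 := by
  have h : rowAtBit l ≤ rowMask := Nat.and_le_right
  have h2 : rowMask < 2 ^ 3744 := Nat.sub_lt (Nat.two_pow_pos _) (by norm_num)
  omega

theorem rowN_lt (a : ℕ) : rowN a < 2 ^ 3744 := rowAtBit_lt _

/-! ### the clique search -/

theorem topBit_succ (k x : ℕ) : topBit (k + 1) x =
    Bool.rec (2 ^ k + topBit k (x >>> 2 ^ k)) (topBit k x) (Nat.beq (x >>> 2 ^ k) 0) := rfl

theorem topBit_spec (k : ℕ) : ∀ x, x ≠ 0 → x < 2 ^ (2 ^ k) → x >>> topBit k x = 1 := by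
  induction k with
  | zero =>
    intro x h0 h1
    have : x = 1 := by
      norm_num at h1
      omega
    subst this
    rfl
  | succ k ih =>
    intro x h0 h1
    rw [topBit_succ]
    cases hb : Nat.beq (x >>> 2 ^ k) 0 with
    | true =>
      have hy : x >>> 2 ^ k = 0 := Nat.eq_of_beq_eq_true hb
      have hlt : x < 2 ^ 2 ^ k := by
        rw [Nat.shiftRight_eq_div_pow] at hy
        rcases Nat.div_eq_zero_iff.mp hy with h | h
        · exact absurd h (by positivity)
        · exact h
      exact ih x h0 hlt
    | false =>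
      have hy : x >>> 2 ^ k ≠ 0 := Nat.ne_of_beq_eq_false hb
      have hlt : x >>> 2 ^ k < 2 ^ 2 ^ k := by
        rw [Nat.shiftRight_eq_div_pow]
        apply Nat.div_lt_of_lt_mul
        calc x < 2 ^ 2 ^ (k + 1) := h1
          _ = 2 ^ 2 ^ k * 2 ^ 2 ^ k := by rw [← pow_add]; congr 1; rw [pow_succ]; ring
      show x >>> (2 ^ k + topBit k (x >>> 2 ^ k)) = 1
      rw [Nat.shiftRight_add]
      exact ih _ hy hlt

theorem testBit_of_shift_eq_one {x l : ℕ} (h : x >>> l = 1) : x.testBit l = true := by
  rw [Nat.testBit, h]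
  rfl

theorem le_of_shift_eq_one {x l j : ℕ} (h : x >>> l = 1) (hj : x.testBit j = true) : j ≤ l := by
  by_contra hc
  rw [not_le] at hc
  have h1 : x.testBit j = (x >>> l).testBit (j - l) := by
    rw [Nat.testBit_shiftRight]
    congr 1
    omega
  rw [h] at h1
  obtain ⟨m, hm⟩ : ∃ m, j - l = m + 1 := ⟨j - l - 1, by omega⟩
  rw [hm] at h1
  simp [Nat.testBit_succ] at h1
  rw [h1] at hj
  exact absurd hj (by simp)

theorem loopBits_zero (g : ℕ → Bool) (cand : ℕ) : loopBits g 0 cand = Nat.beq cand 0 := rfl

theorem loopBits_succ (g : ℕ → Bool) (fuel cand : ℕ) : loopBits g (fuel + 1) cand =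
    Bool.rec
      (Bool.rec false (loopBits g fuel (cand % 2 ^ topBit 9 cand))
        (g (Nat.land (cand % 2 ^ topBit 9 cand) (cRow (topBit 9 cand)))))
      true (Nat.beq cand 0) := rfl

theorem loopBits_spec (g : ℕ → Bool) (fuel : ℕ) : ∀ cand, cand < 2 ^ 512 →
    loopBits g fuel cand = true →
    ∀ l, cand.testBit l = true → g (Nat.land (cand % 2 ^ l) (cRow l)) = true := by
  induction fuel with
  | zero =>
    intro cand _ h l hl
    rw [loopBits_zero] at h
    have : cand = 0 := Nat.eq_of_beq_eq_true h
    subst this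
    simp at hl
  | succ fuel ih =>
    intro cand hlt h l hl
    rw [loopBits_succ] at h
    cases hb : Nat.beq cand 0 with
    | true =>
      have : cand = 0 := Nat.eq_of_beq_eq_true hb
      subst this
      simp at hl
    | false =>
      have hcand : cand ≠ 0 := Nat.ne_of_beq_eq_false hb
      rw [hb] at h
      set l0 := topBit 9 cand with hl0
      have hs : cand >>> l0 = 1 := topBit_spec 9 cand hcand (by simpa using hlt)
      have hle : l ≤ l0 := le_of_shift_eq_one hs hl
      cases hg : g (Nat.land (cand % 2 ^ l0) (cRow l0)) with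
      | false =>
        rw [hg] at h
        exact absurd h (by simp)
      | true =>
        rw [hg] at h
        rcases Nat.lt_or_ge l l0 with hll | hge
        · have hb2 : (cand % 2 ^ l0).testBit l = true := by
            rw [Nat.testBit_mod_two_pow]
            simp [hll, hl]
          have hlt2 : cand % 2 ^ l0 < 2 ^ 512 :=
            lt_of_le_of_lt (Nat.mod_le _ _) hlt
          have := ih _ hlt2 h l hb2
          rwa [Nat.mod_mod_of_dvd _ (pow_dvd_pow 2 hll.le)] at this
        · have : l = l0 := le_antisymm hle hge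
          rw [this]
          exact hg

theorem noK_zero (cand : ℕ) : noK 0 cand = Nat.beq cand 0 := rfl

theorem noK_succ (k cand : ℕ) : noK (k + 1) cand = loopBits (noK k) 321 cand := rfl

/-- If `noK k cand` holds then there is no set of `k + 1` pairwise adjacent vertices in `cand`. -/
theorem noK_spec (k : ℕ) : ∀ cand, cand < 2 ^ 512 → noK k cand = true → ∀ T : Finset ℕ,
    T.card = k + 1 → (∀ c ∈ T, cand.testBit c = true) →
    (∀ c ∈ T, ∀ d ∈ T, c ≠ d → adjC c d = true) → False := by
  induction k with
  | zero =>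
    intro cand _ hk T hT hmem _
    rw [noK_zero] at hk
    have : cand = 0 := Nat.eq_of_beq_eq_true hk
    subst this
    obtain ⟨c, rfl⟩ := Finset.card_eq_one.mp (by simpa using hT)
    have := hmem c (by simp)
    simp at this
  | succ k ih =>
    intro cand hlt hk T hT hmem hadj
    rw [noK_succ] at hk
    have hne : T.Nonempty := by
      rw [← Finset.card_pos, hT]; omega
    set m := T.max' hne with hm
    have hmT : m ∈ T := Finset.max'_mem _ _
    have hf := loopBits_spec _ _ _ hlt hk m (hmem m hmT)
    have hcard : (T.erase m).card = k + 1 := by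
      rw [Finset.card_erase_of_mem hmT, hT]; rfl
    have hlt2 : Nat.land (cand % 2 ^ m) (cRow m) < 2 ^ 512 :=
      lt_of_le_of_lt Nat.and_le_left (lt_of_le_of_lt (Nat.mod_le _ _) hlt)
    refine ih _ hlt2 hf (T.erase m) hcard ?_ ?_
    · intro c hc
      have hcT : c ∈ T := Finset.mem_of_mem_erase hc
      have hcm : c ≠ m := Finset.ne_of_mem_erase hc
      have hcl : c < m := lt_of_le_of_ne (Finset.le_max' T c hcT) hcm
      have h1 := hmem c hcT
      have h2 := hadj m hmT c hcT hcm.symm
      have e : Nat.land (cand % 2 ^ m) (cRow m) = (cand % 2 ^ m) &&& cRow m := rfl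
      rw [e, Nat.testBit_land, Nat.testBit_mod_two_pow]
      have h2' : (cRow m).testBit c = true := h2
      simp [h1, h2', hcl]
    · intro c hc d hd hcd
      exact hadj c (Finset.mem_of_mem_erase hc) d (Finset.mem_of_mem_erase hd) hcd

/-- no six pairwise adjacent vertices among the first 321 vertices, given the per-vertex checks -/
theorem no_six_clique (hcheck : ∀ c, c < 321 → cliqueRow c = true) (T : Finset ℕ) (hT : T.card = 6)
    (hlt : ∀ c ∈ T, c < 321) (hadj : ∀ c ∈ T, ∀ d ∈ T, c ≠ d → adjC c d = true) : False := by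
  have hne : T.Nonempty := by
    rw [← Finset.card_pos, hT]; omega
  set m := T.max' hne with hm
  have hmT : m ∈ T := Finset.max'_mem _ _
  have hcard : (T.erase m).card = 4 + 1 := by
    rw [Finset.card_erase_of_mem hmT, hT]
  have hr : noK 4 (Nat.land (Nat.sub (Nat.pow 2 m) 1) (cRow m)) = true := hcheck m (hlt m hmT)
  have hlt2 : Nat.land (Nat.sub (Nat.pow 2 m) 1) (cRow m) < 2 ^ 512 := by
    have h1 : Nat.land (Nat.sub (Nat.pow 2 m) 1) (cRow m) ≤ Nat.sub (Nat.pow 2 m) 1 :=
      Nat.and_le_left
    have h2 : Nat.sub (Nat.pow 2 m) 1 < 2 ^ m :=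
      Nat.sub_lt (Nat.two_pow_pos _) (by norm_num)
    have h3 : 2 ^ m ≤ 2 ^ 512 := Nat.pow_le_pow_right (by norm_num) (by have := hlt m hmT; omega)
    omega
  refine noK_spec 4 _ hlt2 hr (T.erase m) hcard ?_ ?_
  · intro c hc
    have hcT : c ∈ T := Finset.mem_of_mem_erase hc
    have hcm : c ≠ m := Finset.ne_of_mem_erase hc
    have hcl : c < m := lt_of_le_of_ne (Finset.le_max' T c hcT) hcm
    have h2 := hadj m hmT c hcT hcm.symm
    have e : Nat.land (Nat.sub (Nat.pow 2 m) 1) (cRow m) = (2 ^ m - 1) &&& cRow m := rfl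
    rw [e, Nat.testBit_land, Nat.testBit_two_pow_sub_one]
    have h2' : (cRow m).testBit c = true := h2
    simp [h2', hcl]
  · intro c hc d hd hcd
    exact hadj c (Finset.mem_of_mem_erase hc) d (Finset.mem_of_mem_erase hd) hcd

end Vale.Agent.Lib.P052
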