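import Vale.Agent.Lib.P052.Check

namespace Vale.Agent.Lib.P052

theorem clique_0 : allRange cliqueRow 0 68 = true := by decide +kernel
theorem clique_1 : allRange cliqueRow 68 18 = true := by decide +kernel
theorem clique_2 : allRange cliqueRow 86 19 = true := by decide +kernel
theorem clique_3 : allRange cliqueRow 105 12 = true := by decide +kernel
theorem clique_4 : allRange cliqueRow 117 10 = true := by decide +kernel
theorem clique_5 : allRange cliqueRow 127 8 = true := by decide +kernel
theorem clique_6 : allRange cliqueRow 135 8 = true := by decide +kernel
theorem clique_7 : allRange cliqueRow 143 7 = true := by decide +kernel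
theorem clique_8 : allRange cliqueRow 150 7 = true := by decide +kernel
theorem clique_9 : allRange cliqueRow 157 6 = true := by decide +kernel
theorem clique_10 : allRange cliqueRow 163 6 = true := by decide +kernel
theorem clique_11 : allRange cliqueRow 169 5 = true := by decide +kernel
theorem clique_12 : allRange cliqueRow 174 4 = true := by decide +kernel
theorem clique_13 : allRange cliqueRow 178 4 = true := by decide +kernel
theorem clique_14 : allRange cliqueRow 182 5 = true := by decide +kernel
theorem clique_15 : allRange cliqueRow 187 4 = true := by decide +kernel
theorem clique_16 : allRange cliqueRow 191 4 = true := by decide +kernel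
theorem clique_17 : allRange cliqueRow 195 5 = true := by decide +kernel
theorem clique_18 : allRange cliqueRow 200 3 = true := by decide +kernel
theorem clique_19 : allRange cliqueRow 203 3 = true := by decide +kernel
theorem clique_20 : allRange cliqueRow 206 3 = true := by decide +kernel
theorem clique_21 : allRange cliqueRow 209 3 = true := by decide +kernel
theorem clique_22 : allRange cliqueRow 212 3 = true := by decide +kernel
theorem clique_23 : allRange cliqueRow 215 3 = true := by decide +kernel
theorem clique_24 : allRange cliqueRow 218 3 = true := by decide +kernel
theorem clique_25 : allRange cliqueRow 221 3 = true := by decide +kernel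

end Vale.Agent.Lib.P052
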