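import Vale.Agent.Lib.P052.Check

namespace Vale.Agent.Lib.P052

theorem clique_26 : allRange cliqueRow 224 3 = true := by decide +kernel
theorem clique_27 : allRange cliqueRow 227 2 = true := by decide +kernel
theorem clique_28 : allRange cliqueRow 229 3 = true := by decide +kernel
theorem clique_29 : allRange cliqueRow 232 2 = true := by decide +kernel
theorem clique_30 : allRange cliqueRow 234 2 = true := by decide +kernel
theorem clique_31 : allRange cliqueRow 236 2 = true := by decide +kernel
theorem clique_32 : allRange cliqueRow 238 2 = true := by decide +kernel
theorem clique_33 : allRange cliqueRow 240 2 = true := by decide +kernel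
theorem clique_34 : allRange cliqueRow 242 2 = true := by decide +kernel
theorem clique_35 : allRange cliqueRow 244 1 = true := by decide +kernel
theorem clique_36 : allRange cliqueRow 245 2 = true := by decide +kernel
theorem clique_37 : allRange cliqueRow 247 2 = true := by decide +kernel
theorem clique_38 : allRange cliqueRow 249 2 = true := by decide +kernel
theorem clique_39 : allRange cliqueRow 251 2 = true := by decide +kernel
theorem clique_40 : allRange cliqueRow 253 2 = true := by decide +kernel
theorem clique_41 : allRange cliqueRow 255 2 = true := by decide +kernel
theorem clique_42 : allRange cliqueRow 257 2 = true := by decide +kernel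
theorem clique_43 : allRange cliqueRow 259 2 = true := by decide +kernel
theorem clique_44 : allRange cliqueRow 261 1 = true := by decide +kernel
theorem clique_45 : allRange cliqueRow 262 1 = true := by decide +kernel
theorem clique_46 : allRange cliqueRow 263 1 = true := by decide +kernel
theorem clique_47 : allRange cliqueRow 264 1 = true := by decide +kernel
theorem clique_48 : allRange cliqueRow 265 1 = true := by decide +kernel
theorem clique_49 : allRange cliqueRow 266 1 = true := by decide +kernel
theorem clique_50 : allRange cliqueRow 267 1 = true := by decide +kernel
theorem clique_51 : allRange cliqueRow 268 1 = true := by decide +kernel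

end Vale.Agent.Lib.P052
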