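import Vale.Agent.Lib.P052.Check

namespace Vale.Agent.Lib.P052

theorem clique_52 : allRange cliqueRow 269 1 = true := by decide +kernel
theorem clique_53 : allRange cliqueRow 270 1 = true := by decide +kernel
theorem clique_54 : allRange cliqueRow 271 1 = true := by decide +kernel
theorem clique_55 : allRange cliqueRow 272 1 = true := by decide +kernel
theorem clique_56 : allRange cliqueRow 273 1 = true := by decide +kernel
theorem clique_57 : allRange cliqueRow 274 1 = true := by decide +kernel
theorem clique_58 : allRange cliqueRow 275 1 = true := by decide +kernel
theorem clique_59 : allRange cliqueRow 276 1 = true := by decide +kernel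
theorem clique_60 : allRange cliqueRow 277 1 = true := by decide +kernel
theorem clique_61 : allRange cliqueRow 278 1 = true := by decide +kernel
theorem clique_62 : allRange cliqueRow 279 1 = true := by decide +kernel
theorem clique_63 : allRange cliqueRow 280 1 = true := by decide +kernel
theorem clique_64 : allRange cliqueRow 281 1 = true := by decide +kernel
theorem clique_65 : allRange cliqueRow 282 1 = true := by decide +kernel
theorem clique_66 : allRange cliqueRow 283 1 = true := by decide +kernel
theorem clique_67 : allRange cliqueRow 284 1 = true := by decide +kernel
theorem clique_68 : allRange cliqueRow 285 1 = true := by decide +kernel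
theorem clique_69 : allRange cliqueRow 286 1 = true := by decide +kernel
theorem clique_70 : allRange cliqueRow 287 1 = true := by decide +kernel
theorem clique_71 : allRange cliqueRow 288 1 = true := by decide +kernel
theorem clique_72 : allRange cliqueRow 289 1 = true := by decide +kernel
theorem clique_73 : allRange cliqueRow 290 1 = true := by decide +kernel
theorem clique_74 : allRange cliqueRow 291 1 = true := by decide +kernel
theorem clique_75 : allRange cliqueRow 292 1 = true := by decide +kernel
theorem clique_76 : allRange cliqueRow 293 1 = true := by decide +kernel
theorem clique_77 : allRange cliqueRow 294 1 = true := by decide +kernel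

end Vale.Agent.Lib.P052
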