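import Vale.Agent.Lib.P052.Check

namespace Vale.Agent.Lib.P052

theorem clique_78 : allRange cliqueRow 295 1 = true := by decide +kernel
theorem clique_79 : allRange cliqueRow 296 1 = true := by decide +kernel
theorem clique_80 : allRange cliqueRow 297 1 = true := by decide +kernel
theorem clique_81 : allRange cliqueRow 298 1 = true := by decide +kernel
theorem clique_82 : allRange cliqueRow 299 1 = true := by decide +kernel
theorem clique_83 : allRange cliqueRow 300 1 = true := by decide +kernel
theorem clique_84 : allRange cliqueRow 301 1 = true := by decide +kernel
theorem clique_85 : allRange cliqueRow 302 1 = true := by decide +kernel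
theorem clique_86 : allRange cliqueRow 303 1 = true := by decide +kernel
theorem clique_87 : allRange cliqueRow 304 1 = true := by decide +kernel
theorem clique_88 : allRange cliqueRow 305 1 = true := by decide +kernel
theorem clique_89 : allRange cliqueRow 306 1 = true := by decide +kernel
theorem clique_90 : allRange cliqueRow 307 1 = true := by decide +kernel
theorem clique_91 : allRange cliqueRow 308 1 = true := by decide +kernel
theorem clique_92 : allRange cliqueRow 309 1 = true := by decide +kernel
theorem clique_93 : allRange cliqueRow 310 1 = true := by decide +kernel
theorem clique_94 : allRange cliqueRow 311 1 = true := by decide +kernel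
theorem clique_95 : allRange cliqueRow 312 1 = true := by decide +kernel
theorem clique_96 : allRange cliqueRow 313 1 = true := by decide +kernel
theorem clique_97 : allRange cliqueRow 314 1 = true := by decide +kernel
theorem clique_98 : allRange cliqueRow 315 1 = true := by decide +kernel
theorem clique_99 : allRange cliqueRow 316 1 = true := by decide +kernel
theorem clique_100 : allRange cliqueRow 317 1 = true := by decide +kernel
theorem clique_101 : allRange cliqueRow 318 1 = true := by decide +kernel
theorem clique_102 : allRange cliqueRow 319 1 = true := by decide +kernel
theorem clique_103 : allRange cliqueRow 320 1 = true := by decide +kernel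

end Vale.Agent.Lib.P052
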