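import Vale.Agent.Lib.P052.Check

namespace Vale.Agent.Lib.P052

theorem compact_0 : allRange compactRow 0 32 = true := by decide +kernel
theorem compact_1 : allRange compactRow 32 32 = true := by decide +kernel
theorem compact_2 : allRange compactRow 64 32 = true := by decide +kernel
theorem compact_3 : allRange compactRow 96 32 = true := by decide +kernel
theorem compact_4 : allRange compactRow 128 32 = true := by decide +kernel
theorem compact_5 : allRange compactRow 160 32 = true := by decide +kernel
theorem compact_6 : allRange compactRow 192 32 = true := by decide +kernel
theorem compact_7 : allRange compactRow 224 32 = true := by decide +kernel
theorem compact_8 : allRange compactRow 256 32 = true := by decide +kernel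
theorem compact_9 : allRange compactRow 288 32 = true := by decide +kernel
theorem compact_10 : allRange compactRow 320 1 = true := by decide +kernel

theorem block_ok : allRange blockRow 0 416 = true := by decide +kernel

end Vale.Agent.Lib.P052
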