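import Vale.Agent.Lib.P052.Check

namespace Vale.Agent.Lib.P052

theorem srg_0 : allRange srgRow 0 16 = true := by decide +kernel
theorem srg_1 : allRange srgRow 16 16 = true := by decide +kernel
theorem srg_2 : allRange srgRow 32 16 = true := by decide +kernel
theorem srg_3 : allRange srgRow 48 16 = true := by decide +kernel
theorem srg_4 : allRange srgRow 64 16 = true := by decide +kernel
theorem srg_5 : allRange srgRow 80 16 = true := by decide +kernel
theorem srg_6 : allRange srgRow 96 16 = true := by decide +kernel
theorem srg_7 : allRange srgRow 112 16 = true := by decide +kernel
theorem srg_8 : allRange srgRow 128 16 = true := by decide +kernel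
theorem srg_9 : allRange srgRow 144 16 = true := by decide +kernel
theorem srg_10 : allRange srgRow 160 16 = true := by decide +kernel
theorem srg_11 : allRange srgRow 176 16 = true := by decide +kernel
theorem srg_12 : allRange srgRow 192 16 = true := by decide +kernel
theorem srg_13 : allRange srgRow 208 16 = true := by decide +kernel
theorem srg_14 : allRange srgRow 224 16 = true := by decide +kernel
theorem srg_15 : allRange srgRow 240 16 = true := by decide +kernel
theorem srg_16 : allRange srgRow 256 16 = true := by decide +kernel
theorem srg_17 : allRange srgRow 272 16 = true := by decide +kernel
theorem srg_18 : allRange srgRow 288 16 = true := by decide +kernel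
theorem srg_19 : allRange srgRow 304 16 = true := by decide +kernel
theorem srg_20 : allRange srgRow 320 16 = true := by decide +kernel
theorem srg_21 : allRange srgRow 336 16 = true := by decide +kernel
theorem srg_22 : allRange srgRow 352 16 = true := by decide +kernel
theorem srg_23 : allRange srgRow 368 16 = true := by decide +kernel
theorem srg_24 : allRange srgRow 384 16 = true := by decide +kernel
theorem srg_25 : allRange srgRow 400 16 = true := by decide +kernel

end Vale.Agent.Lib.P052
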