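import Vale.Agent.Lib.P052.Check

namespace Vale.Agent.Lib.P052

theorem sym_0 : allRange symRow 0 16 = true := by decide +kernel
theorem sym_1 : allRange symRow 16 16 = true := by decide +kernel
theorem sym_2 : allRange symRow 32 16 = true := by decide +kernel
theorem sym_3 : allRange symRow 48 16 = true := by decide +kernel
theorem sym_4 : allRange symRow 64 16 = true := by decide +kernel
theorem sym_5 : allRange symRow 80 16 = true := by decide +kernel
theorem sym_6 : allRange symRow 96 16 = true := by decide +kernel
theorem sym_7 : allRange symRow 112 16 = true := by decide +kernel
theorem sym_8 : allRange symRow 128 16 = true := by decide +kernel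
theorem sym_9 : allRange symRow 144 16 = true := by decide +kernel
theorem sym_10 : allRange symRow 160 16 = true := by decide +kernel
theorem sym_11 : allRange symRow 176 16 = true := by decide +kernel
theorem sym_12 : allRange symRow 192 16 = true := by decide +kernel
theorem sym_13 : allRange symRow 208 16 = true := by decide +kernel
theorem sym_14 : allRange symRow 224 16 = true := by decide +kernel
theorem sym_15 : allRange symRow 240 16 = true := by decide +kernel
theorem sym_16 : allRange symRow 256 16 = true := by decide +kernel
theorem sym_17 : allRange symRow 272 16 = true := by decide +kernel
theorem sym_18 : allRange symRow 288 16 = true := by decide +kernel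
theorem sym_19 : allRange symRow 304 16 = true := by decide +kernel
theorem sym_20 : allRange symRow 320 16 = true := by decide +kernel
theorem sym_21 : allRange symRow 336 16 = true := by decide +kernel
theorem sym_22 : allRange symRow 352 16 = true := by decide +kernel
theorem sym_23 : allRange symRow 368 16 = true := by decide +kernel
theorem sym_24 : allRange symRow 384 16 = true := by decide +kernel
theorem sym_25 : allRange symRow 400 16 = true := by decide +kernel

end Vale.Agent.Lib.P052
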