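import Vale.Agent.Lib.P052.CheckClique0
import Vale.Agent.Lib.P052.CheckClique1
import Vale.Agent.Lib.P052.CheckClique2
import Vale.Agent.Lib.P052.CheckClique3
import Vale.Agent.Lib.P052.CheckSrg
import Vale.Agent.Lib.P052.CheckSym
import Vale.Agent.Lib.P052.CheckMisc

namespace Vale.Agent.Lib.P052

theorem allBelow_spec {p : Nat → Bool} {n : Nat} (h : allBelow p n = true) (i : Nat) (hi : i < n) : p i = true := by
  induction n with
  | zero => exact absurd hi (Nat.not_lt_zero _)
  | succ n ih =>
    have hstep : allBelow p (n + 1) = Bool.rec false (allBelow p n) (p n) := rfl
    rw [hstep] at h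
    cases hp : p n with
    | false => rw [hp] at h; exact absurd h (by simp)
    | true =>
      rw [hp] at h
      by_cases hin : i = n
      · rw [hin]; exact hp
      · exact ih h (by omega)

theorem allRange_spec {p : Nat → Bool} {lo n : Nat} (h : allRange p lo n = true) (c : Nat) (h1 : lo ≤ c) (h2 : c < lo + n) : p c = true := by
  have := allBelow_spec h (c - lo) (by omega)
  have e : Nat.add lo (c - lo) = c := by
    show lo + (c - lo) = c
    omega
  exact e ▸ this

theorem clique_all (c : Nat) (h : c < 321) : cliqueRow c = true := by
  by_cases h0 : c < 68
  · exact allRange_spec clique_0 c (by omega) (by omega)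
  by_cases h1 : c < 86
  · exact allRange_spec clique_1 c (by omega) (by omega)
  by_cases h2 : c < 105
  · exact allRange_spec clique_2 c (by omega) (by omega)
  by_cases h3 : c < 117
  · exact allRange_spec clique_3 c (by omega) (by omega)
  by_cases h4 : c < 127
  · exact allRange_spec clique_4 c (by omega) (by omega)
  by_cases h5 : c < 135
  · exact allRange_spec clique_5 c (by omega) (by omega)
  by_cases h6 : c < 143
  · exact allRange_spec clique_6 c (by omega) (by omega)
  by_cases h7 : c < 150
  · exact allRange_spec clique_7 c (by omega) (by omega)
  by_cases h8 : c < 157
  · exact allRange_spec clique_8 c (by omega) (by omega)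
  by_cases h9 : c < 163
  · exact allRange_spec clique_9 c (by omega) (by omega)
  by_cases h10 : c < 169
  · exact allRange_spec clique_10 c (by omega) (by omega)
  by_cases h11 : c < 174
  · exact allRange_spec clique_11 c (by omega) (by omega)
  by_cases h12 : c < 178
  · exact allRange_spec clique_12 c (by omega) (by omega)
  by_cases h13 : c < 182
  · exact allRange_spec clique_13 c (by omega) (by omega)
  by_cases h14 : c < 187
  · exact allRange_spec clique_14 c (by omega) (by omega)
  by_cases h15 : c < 191
  · exact allRange_spec clique_15 c (by omega) (by omega)
  by_cases h16 : c < 195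
  · exact allRange_spec clique_16 c (by omega) (by omega)
  by_cases h17 : c < 200
  · exact allRange_spec clique_17 c (by omega) (by omega)
  by_cases h18 : c < 203
  · exact allRange_spec clique_18 c (by omega) (by omega)
  by_cases h19 : c < 206
  · exact allRange_spec clique_19 c (by omega) (by omega)
  by_cases h20 : c < 209
  · exact allRange_spec clique_20 c (by omega) (by omega)
  by_cases h21 : c < 212
  · exact allRange_spec clique_21 c (by omega) (by omega)
  by_cases h22 : c < 215
  · exact allRange_spec clique_22 c (by omega) (by omega)
  by_cases h23 : c < 218
  · exact allRange_spec clique_23 c (by omega) (by omega)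
  by_cases h24 : c < 221
  · exact allRange_spec clique_24 c (by omega) (by omega)
  by_cases h25 : c < 224
  · exact allRange_spec clique_25 c (by omega) (by omega)
  by_cases h26 : c < 227
  · exact allRange_spec clique_26 c (by omega) (by omega)
  by_cases h27 : c < 229
  · exact allRange_spec clique_27 c (by omega) (by omega)
  by_cases h28 : c < 232
  · exact allRange_spec clique_28 c (by omega) (by omega)
  by_cases h29 : c < 234
  · exact allRange_spec clique_29 c (by omega) (by omega)
  by_cases h30 : c < 236
  · exact allRange_spec clique_30 c (by omega) (by omega)
  by_cases h31 : c < 238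
  · exact allRange_spec clique_31 c (by omega) (by omega)
  by_cases h32 : c < 240
  · exact allRange_spec clique_32 c (by omega) (by omega)
  by_cases h33 : c < 242
  · exact allRange_spec clique_33 c (by omega) (by omega)
  by_cases h34 : c < 244
  · exact allRange_spec clique_34 c (by omega) (by omega)
  by_cases h35 : c < 245
  · exact allRange_spec clique_35 c (by omega) (by omega)
  by_cases h36 : c < 247
  · exact allRange_spec clique_36 c (by omega) (by omega)
  by_cases h37 : c < 249
  · exact allRange_spec clique_37 c (by omega) (by omega)
  by_cases h38 : c < 251
  · exact allRange_spec clique_38 c (by omega) (by omega)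
  by_cases h39 : c < 253
  · exact allRange_spec clique_39 c (by omega) (by omega)
  by_cases h40 : c < 255
  · exact allRange_spec clique_40 c (by omega) (by omega)
  by_cases h41 : c < 257
  · exact allRange_spec clique_41 c (by omega) (by omega)
  by_cases h42 : c < 259
  · exact allRange_spec clique_42 c (by omega) (by omega)
  by_cases h43 : c < 261
  · exact allRange_spec clique_43 c (by omega) (by omega)
  by_cases h44 : c < 262
  · exact allRange_spec clique_44 c (by omega) (by omega)
  by_cases h45 : c < 263
  · exact allRange_spec clique_45 c (by omega) (by omega)
  by_cases h46 : c < 264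
  · exact allRange_spec clique_46 c (by omega) (by omega)
  by_cases h47 : c < 265
  · exact allRange_spec clique_47 c (by omega) (by omega)
  by_cases h48 : c < 266
  · exact allRange_spec clique_48 c (by omega) (by omega)
  by_cases h49 : c < 267
  · exact allRange_spec clique_49 c (by omega) (by omega)
  by_cases h50 : c < 268
  · exact allRange_spec clique_50 c (by omega) (by omega)
  by_cases h51 : c < 269
  · exact allRange_spec clique_51 c (by omega) (by omega)
  by_cases h52 : c < 270
  · exact allRange_spec clique_52 c (by omega) (by omega)
  by_cases h53 : c < 271
  · exact allRange_spec clique_53 c (by omega) (by omega)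
  by_cases h54 : c < 272
  · exact allRange_spec clique_54 c (by omega) (by omega)
  by_cases h55 : c < 273
  · exact allRange_spec clique_55 c (by omega) (by omega)
  by_cases h56 : c < 274
  · exact allRange_spec clique_56 c (by omega) (by omega)
  by_cases h57 : c < 275
  · exact allRange_spec clique_57 c (by omega) (by omega)
  by_cases h58 : c < 276
  · exact allRange_spec clique_58 c (by omega) (by omega)
  by_cases h59 : c < 277
  · exact allRange_spec clique_59 c (by omega) (by omega)
  by_cases h60 : c < 278
  · exact allRange_spec clique_60 c (by omega) (by omega)
  by_cases h61 : c < 279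
  · exact allRange_spec clique_61 c (by omega) (by omega)
  by_cases h62 : c < 280
  · exact allRange_spec clique_62 c (by omega) (by omega)
  by_cases h63 : c < 281
  · exact allRange_spec clique_63 c (by omega) (by omega)
  by_cases h64 : c < 282
  · exact allRange_spec clique_64 c (by omega) (by omega)
  by_cases h65 : c < 283
  · exact allRange_spec clique_65 c (by omega) (by omega)
  by_cases h66 : c < 284
  · exact allRange_spec clique_66 c (by omega) (by omega)
  by_cases h67 : c < 285
  · exact allRange_spec clique_67 c (by omega) (by omega)
  by_cases h68 : c < 286
  · exact allRange_spec clique_68 c (by omega) (by omega)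
  by_cases h69 : c < 287
  · exact allRange_spec clique_69 c (by omega) (by omega)
  by_cases h70 : c < 288
  · exact allRange_spec clique_70 c (by omega) (by omega)
  by_cases h71 : c < 289
  · exact allRange_spec clique_71 c (by omega) (by omega)
  by_cases h72 : c < 290
  · exact allRange_spec clique_72 c (by omega) (by omega)
  by_cases h73 : c < 291
  · exact allRange_spec clique_73 c (by omega) (by omega)
  by_cases h74 : c < 292
  · exact allRange_spec clique_74 c (by omega) (by omega)
  by_cases h75 : c < 293
  · exact allRange_spec clique_75 c (by omega) (by omega)
  by_cases h76 : c < 294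
  · exact allRange_spec clique_76 c (by omega) (by omega)
  by_cases h77 : c < 295
  · exact allRange_spec clique_77 c (by omega) (by omega)
  by_cases h78 : c < 296
  · exact allRange_spec clique_78 c (by omega) (by omega)
  by_cases h79 : c < 297
  · exact allRange_spec clique_79 c (by omega) (by omega)
  by_cases h80 : c < 298
  · exact allRange_spec clique_80 c (by omega) (by omega)
  by_cases h81 : c < 299
  · exact allRange_spec clique_81 c (by omega) (by omega)
  by_cases h82 : c < 300
  · exact allRange_spec clique_82 c (by omega) (by omega)
  by_cases h83 : c < 301
  · exact allRange_spec clique_83 c (by omega) (by omega)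
  by_cases h84 : c < 302
  · exact allRange_spec clique_84 c (by omega) (by omega)
  by_cases h85 : c < 303
  · exact allRange_spec clique_85 c (by omega) (by omega)
  by_cases h86 : c < 304
  · exact allRange_spec clique_86 c (by omega) (by omega)
  by_cases h87 : c < 305
  · exact allRange_spec clique_87 c (by omega) (by omega)
  by_cases h88 : c < 306
  · exact allRange_spec clique_88 c (by omega) (by omega)
  by_cases h89 : c < 307
  · exact allRange_spec clique_89 c (by omega) (by omega)
  by_cases h90 : c < 308
  · exact allRange_spec clique_90 c (by omega) (by omega)
  by_cases h91 : c < 309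
  · exact allRange_spec clique_91 c (by omega) (by omega)
  by_cases h92 : c < 310
  · exact allRange_spec clique_92 c (by omega) (by omega)
  by_cases h93 : c < 311
  · exact allRange_spec clique_93 c (by omega) (by omega)
  by_cases h94 : c < 312
  · exact allRange_spec clique_94 c (by omega) (by omega)
  by_cases h95 : c < 313
  · exact allRange_spec clique_95 c (by omega) (by omega)
  by_cases h96 : c < 314
  · exact allRange_spec clique_96 c (by omega) (by omega)
  by_cases h97 : c < 315
  · exact allRange_spec clique_97 c (by omega) (by omega)
  by_cases h98 : c < 316
  · exact allRange_spec clique_98 c (by omega) (by omega)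
  by_cases h99 : c < 317
  · exact allRange_spec clique_99 c (by omega) (by omega)
  by_cases h100 : c < 318
  · exact allRange_spec clique_100 c (by omega) (by omega)
  by_cases h101 : c < 319
  · exact allRange_spec clique_101 c (by omega) (by omega)
  by_cases h102 : c < 320
  · exact allRange_spec clique_102 c (by omega) (by omega)
  exact allRange_spec clique_103 c (by omega) (by omega)

theorem srg_all (c : Nat) (h : c < 416) : srgRow c = true := by
  by_cases h0 : c < 16
  · exact allRange_spec srg_0 c (by omega) (by omega)
  by_cases h1 : c < 32
  · exact allRange_spec srg_1 c (by omega) (by omega)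
  by_cases h2 : c < 48
  · exact allRange_spec srg_2 c (by omega) (by omega)
  by_cases h3 : c < 64
  · exact allRange_spec srg_3 c (by omega) (by omega)
  by_cases h4 : c < 80
  · exact allRange_spec srg_4 c (by omega) (by omega)
  by_cases h5 : c < 96
  · exact allRange_spec srg_5 c (by omega) (by omega)
  by_cases h6 : c < 112
  · exact allRange_spec srg_6 c (by omega) (by omega)
  by_cases h7 : c < 128
  · exact allRange_spec srg_7 c (by omega) (by omega)
  by_cases h8 : c < 144
  · exact allRange_spec srg_8 c (by omega) (by omega)
  by_cases h9 : c < 160
  · exact allRange_spec srg_9 c (by omega) (by omega)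
  by_cases h10 : c < 176
  · exact allRange_spec srg_10 c (by omega) (by omega)
  by_cases h11 : c < 192
  · exact allRange_spec srg_11 c (by omega) (by omega)
  by_cases h12 : c < 208
  · exact allRange_spec srg_12 c (by omega) (by omega)
  by_cases h13 : c < 224
  · exact allRange_spec srg_13 c (by omega) (by omega)
  by_cases h14 : c < 240
  · exact allRange_spec srg_14 c (by omega) (by omega)
  by_cases h15 : c < 256
  · exact allRange_spec srg_15 c (by omega) (by omega)
  by_cases h16 : c < 272
  · exact allRange_spec srg_16 c (by omega) (by omega)
  by_cases h17 : c < 288
  · exact allRange_spec srg_17 c (by omega) (by omega)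
  by_cases h18 : c < 304
  · exact allRange_spec srg_18 c (by omega) (by omega)
  by_cases h19 : c < 320
  · exact allRange_spec srg_19 c (by omega) (by omega)
  by_cases h20 : c < 336
  · exact allRange_spec srg_20 c (by omega) (by omega)
  by_cases h21 : c < 352
  · exact allRange_spec srg_21 c (by omega) (by omega)
  by_cases h22 : c < 368
  · exact allRange_spec srg_22 c (by omega) (by omega)
  by_cases h23 : c < 384
  · exact allRange_spec srg_23 c (by omega) (by omega)
  by_cases h24 : c < 400
  · exact allRange_spec srg_24 c (by omega) (by omega)
  exact allRange_spec srg_25 c (by omega) (by omega)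

theorem sym_all (c : Nat) (h : c < 416) : symRow c = true := by
  by_cases h0 : c < 16
  · exact allRange_spec sym_0 c (by omega) (by omega)
  by_cases h1 : c < 32
  · exact allRange_spec sym_1 c (by omega) (by omega)
  by_cases h2 : c < 48
  · exact allRange_spec sym_2 c (by omega) (by omega)
  by_cases h3 : c < 64
  · exact allRange_spec sym_3 c (by omega) (by omega)
  by_cases h4 : c < 80
  · exact allRange_spec sym_4 c (by omega) (by omega)
  by_cases h5 : c < 96
  · exact allRange_spec sym_5 c (by omega) (by omega)
  by_cases h6 : c < 112
  · exact allRange_spec sym_6 c (by omega) (by omega)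
  by_cases h7 : c < 128
  · exact allRange_spec sym_7 c (by omega) (by omega)
  by_cases h8 : c < 144
  · exact allRange_spec sym_8 c (by omega) (by omega)
  by_cases h9 : c < 160
  · exact allRange_spec sym_9 c (by omega) (by omega)
  by_cases h10 : c < 176
  · exact allRange_spec sym_10 c (by omega) (by omega)
  by_cases h11 : c < 192
  · exact allRange_spec sym_11 c (by omega) (by omega)
  by_cases h12 : c < 208
  · exact allRange_spec sym_12 c (by omega) (by omega)
  by_cases h13 : c < 224
  · exact allRange_spec sym_13 c (by omega) (by omega)
  by_cases h14 : c < 240
  · exact allRange_spec sym_14 c (by omega) (by omega)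
  by_cases h15 : c < 256
  · exact allRange_spec sym_15 c (by omega) (by omega)
  by_cases h16 : c < 272
  · exact allRange_spec sym_16 c (by omega) (by omega)
  by_cases h17 : c < 288
  · exact allRange_spec sym_17 c (by omega) (by omega)
  by_cases h18 : c < 304
  · exact allRange_spec sym_18 c (by omega) (by omega)
  by_cases h19 : c < 320
  · exact allRange_spec sym_19 c (by omega) (by omega)
  by_cases h20 : c < 336
  · exact allRange_spec sym_20 c (by omega) (by omega)
  by_cases h21 : c < 352
  · exact allRange_spec sym_21 c (by omega) (by omega)
  by_cases h22 : c < 368
  · exact allRange_spec sym_22 c (by omega) (by omega)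
  by_cases h23 : c < 384
  · exact allRange_spec sym_23 c (by omega) (by omega)
  by_cases h24 : c < 400
  · exact allRange_spec sym_24 c (by omega) (by omega)
  exact allRange_spec sym_25 c (by omega) (by omega)

theorem compact_all (c : Nat) (h : c < 321) : compactRow c = true := by
  by_cases h0 : c < 32
  · exact allRange_spec compact_0 c (by omega) (by omega)
  by_cases h1 : c < 64
  · exact allRange_spec compact_1 c (by omega) (by omega)
  by_cases h2 : c < 96
  · exact allRange_spec compact_2 c (by omega) (by omega)
  by_cases h3 : c < 128
  · exact allRange_spec compact_3 c (by omega) (by omega)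
  by_cases h4 : c < 160
  · exact allRange_spec compact_4 c (by omega) (by omega)
  by_cases h5 : c < 192
  · exact allRange_spec compact_5 c (by omega) (by omega)
  by_cases h6 : c < 224
  · exact allRange_spec compact_6 c (by omega) (by omega)
  by_cases h7 : c < 256
  · exact allRange_spec compact_7 c (by omega) (by omega)
  by_cases h8 : c < 288
  · exact allRange_spec compact_8 c (by omega) (by omega)
  by_cases h9 : c < 320
  · exact allRange_spec compact_9 c (by omega) (by omega)
  exact allRange_spec compact_10 c (by omega) (by omega)

end Vale.Agent.Lib.P052
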