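import Vale.Agent.Lib.P052.Main

namespace Vale.Agent.Lib.P052

open Matrix

/-- the stretching factor for the extra point -/
noncomputable def t : ℝ := (-1 + Real.sqrt 222) / 13

theorem t_pos : 0 < t := by
  unfold t
  have : (1 : ℝ) < Real.sqrt 222 := by
    rw [show (1 : ℝ) = Real.sqrt 1 by simp]
    exact Real.sqrt_lt_sqrt (by norm_num) (by norm_num)
  apply div_pos <;> linarith

theorem t_eq : 13 * t ^ 2 + 2 * t = 17 := by
  unfold t
  have h : Real.sqrt 222 ^ 2 = 222 := Real.sq_sqrt (by norm_num)
  field_simp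
  nlinarith [h]

theorem dist_sq' {n : ℕ} (x y : EuclideanSpace ℝ (Fin n)) :
    dist x y ^ 2 = inner ℝ x x - 2 * inner ℝ x y + inner ℝ y y := by
  rw [dist_eq_norm, norm_sub_sq_real, real_inner_self_eq_norm_sq, real_inner_self_eq_norm_sq]

/-- the inclusion of the 321 vertices -/
def incl (a : Fin 321) : V := Fin.castLE (by norm_num) a

theorem P_low_low {a b : V} (ha : a.val < 320) (hb : b.val < 320) :
    P a b = (4 * A a b + 16 * (if a = b then 1 else 0) - 1) / 96 := by
  rw [P_apply, (f_low ha).1, (f_low ha).2]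
  ring

theorem P_v_low {a b : V} (ha : a.val = 320) (hb : b.val < 320) :
    P a b = (4 * A a b - 1) / 96 := by
  have hne : a ≠ b := by
    intro h
    rw [h] at ha
    omega
  rw [P_apply, (f_low hb).1, (f_low hb).2, if_neg hne]
  ring

theorem P_v_v {a : V} (ha : a.val = 320) : P a a = 13 / 96 := by
  rw [P_apply, (f_v ha).1, (f_v ha).2, A_diag]
  norm_num

theorem A_values (a b : V) (h : adjB a b = false) : A a b = 0 := by
  unfold A
  simp [h]

theorem A_le_one (a b : V) : A a b ≤ 1 := by
  unfold A
  split_ifs <;> norm_num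

theorem A_nonneg (a b : V) : 0 ≤ A a b := by
  unfold A
  split_ifs <;> norm_num

theorem exists_points : ∃ φ : Fin 321 → EuclideanSpace ℝ (Fin 63),
    (∀ a b, dist (φ a) (φ b) ^ 2 ≤ 1 / 3) ∧
    (∀ a b : Fin 321, a ≠ b → adjB a b = false → dist (φ a) (φ b) ^ 2 = 1 / 3) := by
  obtain ⟨ψ, hψ⟩ := exists_gram_realization P P_props.1 P_props.2 P_trace
  set φ : Fin 321 → EuclideanSpace ℝ (Fin 63) :=
    fun a => if a.val = 320 then t • ψ (incl a) else ψ (incl a) with hφ
  have hlow : ∀ a : Fin 321, a.val ≠ 320 → φ a = ψ (incl a) := by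
    intro a ha
    simp [hφ, ha]
  have hhigh : ∀ a : Fin 321, a.val = 320 → φ a = t • ψ (incl a) := by
    intro a ha
    simp [hφ, ha]
  have hval : ∀ a : Fin 321, (incl a).val = a.val := fun a => rfl
  have hne : ∀ {a b : Fin 321}, a ≠ b → incl a ≠ incl b := by
    intro a b hab h
    apply hab
    apply Fin.ext
    have := congrArg Fin.val h
    simpa [hval] using this
  -- the two main computations
  have case_ll : ∀ a b : Fin 321, a ≠ b → a.val ≠ 320 → b.val ≠ 320 →
      dist (φ a) (φ b) ^ 2 = (32 - 8 * A (incl a) (incl b)) / 96 := by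
    intro a b hab ha hb
    have ha' : (incl a).val < 320 := by rw [hval]; have := a.2; omega
    have hb' : (incl b).val < 320 := by rw [hval]; have := b.2; omega
    rw [hlow a ha, hlow b hb, dist_sq', hψ, hψ, hψ, P_low_low ha' ha', P_low_low ha' hb',
      P_low_low hb' hb', A_diag, A_diag, if_pos rfl, if_pos rfl, if_neg (hne hab)]
    ring
  have case_vl : ∀ a b : Fin 321, a.val = 320 → b.val ≠ 320 →
      dist (φ a) (φ b) ^ 2 = (32 - 8 * t * A (incl a) (incl b)) / 96 := by
    intro a b ha hb
    have ha' : (incl a).val = 320 := by rw [hval]; exact ha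
    have hb' : (incl b).val < 320 := by rw [hval]; have := b.2; omega
    rw [hhigh a ha, hlow b hb, dist_sq', inner_smul_left, inner_smul_right, inner_smul_left, hψ, hψ,
      hψ, P_v_v ha', P_v_low ha' hb', P_low_low hb' hb', A_diag, if_pos rfl]
    simp only [conj_trivial]
    have := t_eq
    have e : t * (t * (13 / 96)) - 2 * (t * ((4 * A (incl a) (incl b) - 1) / 96)) +
        (4 * 0 + 16 * 1 - 1) / 96 = (13 * t ^ 2 + 2 * t + 15 - 8 * t * A (incl a) (incl b)) / 96 := by
      ring
    rw [e, this]
    ring
  have hsame : ∀ a b : Fin 321, a.val = 320 → b.val = 320 → a = b := by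
    intro a b ha hb
    exact Fin.ext (by omega)
  refine ⟨φ, ?_, ?_⟩
  · intro a b
    by_cases hab : a = b
    · subst hab
      simp
    · by_cases ha : a.val = 320
      · have hb : b.val ≠ 320 := fun hb => hab (hsame a b ha hb)
        rw [case_vl a b ha hb]
        have h1 := A_nonneg (incl a) (incl b)
        have h2 := t_pos
        have h3 : 0 ≤ t * A (incl a) (incl b) := mul_nonneg h2.le h1
        linarith
      · by_cases hb : b.val = 320
        · rw [dist_comm, case_vl b a hb ha]
          have h1 := A_nonneg (incl b) (incl a)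
          have h2 := t_pos
          have h3 : 0 ≤ t * A (incl b) (incl a) := mul_nonneg h2.le h1
          linarith
        · rw [case_ll a b hab ha hb]
          have h1 := A_nonneg (incl a) (incl b)
          linarith
  · intro a b hab hadj
    have hA : A (incl a) (incl b) = 0 := A_values _ _ hadj
    have hA' : A (incl b) (incl a) = 0 := by rw [A_symm]; exact hA
    by_cases ha : a.val = 320
    · have hb : b.val ≠ 320 := fun hb => hab (hsame a b ha hb)
      rw [case_vl a b ha hb, hA]
      norm_num
    · by_cases hb : b.val = 320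
      · rw [dist_comm, case_vl b a hb ha, hA']
        norm_num
      · rw [case_ll a b hab ha hb, hA]
        norm_num

theorem nonadj_pair : adjB 0 2 = false := by decide +kernel

theorem main : ∃ Y : Set (EuclideanSpace ℝ (Fin 63)), Y.Finite ∧ 0 < Metric.diam Y ∧
    ∀ C : Fin 64 → Set (EuclideanSpace ℝ (Fin 63)), (⋃ i, C i) = Y →
      ∃ i, Metric.diam Y ≤ Metric.diam (C i) := by
  obtain ⟨φ, h1, h2⟩ := exists_points
  set D : ℝ := Real.sqrt (1 / 3) with hD
  have hDpos : 0 < D := Real.sqrt_pos.mpr (by norm_num)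
  have hle : ∀ a b, dist (φ a) (φ b) ≤ D := by
    intro a b
    exact Real.le_sqrt_of_sq_le (h1 a b)
  have heq : ∀ a b : Fin 321, a ≠ b → adjB a b = false → dist (φ a) (φ b) = D := by
    intro a b hab hadj
    rw [hD, ← h2 a b hab hadj, Real.sqrt_sq dist_nonneg]
  have hfin : (Set.range φ).Finite := Set.finite_range φ
  have hbdd : Bornology.IsBounded (Set.range φ) := hfin.isBounded
  have hdiam : Metric.diam (Set.range φ) = D := by
    apply le_antisymm
    · apply Metric.diam_le_of_forall_dist_le hDpos.le
      rintro _ ⟨a, rfl⟩ _ ⟨b, rfl⟩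
      exact hle a b
    · have hp := heq 0 2 (by decide) nonadj_pair
      rw [← hp]
      exact Metric.dist_le_diam_of_mem hbdd ⟨_, rfl⟩ ⟨_, rfl⟩
  refine ⟨Set.range φ, hfin, by rw [hdiam]; exact hDpos, ?_⟩
  intro C hC
  by_contra hcon
  push Not at hcon
  rw [hdiam] at hcon
  have hmem : ∀ a : Fin 321, ∃ i, φ a ∈ C i := by
    intro a
    have : φ a ∈ ⋃ i, C i := by rw [hC]; exact ⟨a, rfl⟩
    simpa using this
  choose g hg using hmem
  obtain ⟨i, hi⟩ := Fintype.exists_lt_card_fiber_of_mul_lt_card (n := 5) g (by simp)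
  obtain ⟨T1, hT1, hT1c⟩ := Finset.exists_subset_card_eq (n := 6) hi
  have hinj : Function.Injective (fun a : Fin 321 => a.val) := Fin.val_injective
  refine no_six_clique clique_all (T1.map ⟨_, hinj⟩) (by simpa using hT1c) ?_ ?_
  · intro c hc
    simp only [Finset.mem_map, Function.Embedding.coeFn_mk] at hc
    obtain ⟨a, _, rfl⟩ := hc
    exact a.2
  · intro c hc d hd hcd
    simp only [Finset.mem_map, Function.Embedding.coeFn_mk] at hc hd
    obtain ⟨a, ha, rfl⟩ := hc
    obtain ⟨b, hb, rfl⟩ := hd
    rw [adjC_eq a.2 b.2]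
    by_contra hnot
    have hnot' : adjB a b = false := by simpa using hnot
    have hab : a ≠ b := fun h => hcd (by rw [h])
    have hD' := heq a b hab hnot'
    have hga : g a = i := by
      have := hT1 ha
      simpa using this
    have hgb : g b = i := by
      have := hT1 hb
      simpa using this
    have hCsub : C i ⊆ Set.range φ := by
      rw [← hC]
      exact Set.subset_iUnion C i
    have hbddC : Bornology.IsBounded (C i) := hbdd.subset hCsub
    have hA : φ a ∈ C i := hga ▸ hg a
    have hB : φ b ∈ C i := hgb ▸ hg b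
    have := Metric.dist_le_diam_of_mem hbddC hA hB
    have hlt := hcon i
    linarith

end Vale.Agent.Lib.P052
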