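import Mathlib

namespace Vale.Agent.Lib.P052

open Matrix

/-- A real symmetric idempotent matrix of trace `r` is the Gram matrix of vectors in `ℝ^r`. -/
theorem exists_gram_realization {n r : ℕ} (P : Matrix (Fin n) (Fin n) ℝ)
    (hsym : Pᵀ = P) (hidem : P * P = P) (htr : P.trace = r) :
    ∃ ψ : Fin n → EuclideanSpace ℝ (Fin r), ∀ a b, inner ℝ (ψ a) (ψ b) = P a b := by
  classical
  set T : EuclideanSpace ℝ (Fin n) →ₗ[ℝ] EuclideanSpace ℝ (Fin n) := Matrix.toLpLin 2 2 P with hT
  have hidemT : IsIdempotentElem T := by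
    show T * T = T
    rw [hT, Module.End.mul_eq_comp, ← Matrix.toLpLin_mul_same, hidem]
  have hproj := LinearMap.IsIdempotentElem.isProj_range T hidemT
  have htrace : LinearMap.trace ℝ _ T = (Module.finrank ℝ (LinearMap.range T) : ℝ) := hproj.trace
  have htrace2 : LinearMap.trace ℝ _ T = P.trace := by
    rw [hT, Matrix.toLpLin_eq_toLin, LinearMap.trace_eq_matrix_trace ℝ (PiLp.basisFun 2 ℝ (Fin n))]
    simp
  have hfin : Module.finrank ℝ (LinearMap.range T) = r := by
    have : (Module.finrank ℝ (LinearMap.range T) : ℝ) = (r : ℝ) := by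
      rw [← htrace, htrace2, htr]
    exact_mod_cast this
  let b := (stdOrthonormalBasis ℝ (LinearMap.range T)).reindex (finCongr hfin)
  refine ⟨fun a => b.repr ⟨T (EuclideanSpace.single a 1), LinearMap.mem_range_self _ _⟩, ?_⟩
  intro a c
  rw [LinearIsometryEquiv.inner_map_map]
  show inner ℝ (T (EuclideanSpace.single a 1)) (T (EuclideanSpace.single c 1)) = P a c
  have key : ∀ i j, (T (EuclideanSpace.single j 1)).ofLp i = P i j := by
    intro i j
    simp [hT, Matrix.ofLp_toLpLin, Matrix.toLin'_apply]
  rw [PiLp.inner_apply]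
  simp only [key]
  have : (P * P) a c = P a c := by rw [hidem]
  rw [← this, Matrix.mul_apply]
  apply Finset.sum_congr rfl
  intro x _
  have hsx : P x a = P a x := by
    have := congrFun (congrFun hsym x) a
    simpa [Matrix.transpose_apply] using this.symm
  simp [hsx, mul_comm]

end Vale.Agent.Lib.P052
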