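import Mathlib

namespace Vale.Agent.Lib.P052

open Matrix

variable {n : ℕ}

theorem proj_identity (X : Matrix (Fin n) (Fin n) ℝ) (f g : Fin n → ℝ)
    (hsym : Xᵀ = X) (hXX : X * X = (96 : ℝ) • X)
    (hXf : X *ᵥ f = (96 : ℝ) • f) (hXg : X *ᵥ g = (96 : ℝ) • g)
    (hff : f ⬝ᵥ f = 64) (hgg : g ⬝ᵥ g = 192) (hfg : f ⬝ᵥ g = 0) :
    let P : Matrix (Fin n) (Fin n) ℝ :=
      (1 / 96 : ℝ) • X - (1 / 64 : ℝ) • vecMulVec f f - (1 / 192 : ℝ) • vecMulVec g g
    Pᵀ = P ∧ P * P = P := by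
  intro P
  have hfX : f ᵥ* X = (96 : ℝ) • f := by
    rw [← Matrix.mulVec_transpose, hsym, hXf]
  have hgX : g ᵥ* X = (96 : ℝ) • g := by
    rw [← Matrix.mulVec_transpose, hsym, hXg]
  have hgf : g ⬝ᵥ f = 0 := by rw [dotProduct_comm, hfg]
  have e1 : X * vecMulVec f f = (96 : ℝ) • vecMulVec f f := by
    rw [mul_vecMulVec, hXf, smul_vecMulVec]
  have e2 : X * vecMulVec g g = (96 : ℝ) • vecMulVec g g := by
    rw [mul_vecMulVec, hXg, smul_vecMulVec]
  have e3 : vecMulVec f f * X = (96 : ℝ) • vecMulVec f f := by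
    rw [vecMulVec_mul, hfX, vecMulVec_smul]
  have e4 : vecMulVec g g * X = (96 : ℝ) • vecMulVec g g := by
    rw [vecMulVec_mul, hgX, vecMulVec_smul]
  have e5 : vecMulVec f f * vecMulVec f f = (64 : ℝ) • vecMulVec f f := by
    rw [vecMulVec_mul_vecMulVec, hff, vecMulVec_smul]
  have e6 : vecMulVec g g * vecMulVec g g = (192 : ℝ) • vecMulVec g g := by
    rw [vecMulVec_mul_vecMulVec, hgg, vecMulVec_smul]
  have e7 : vecMulVec f f * vecMulVec g g = 0 := by
    rw [vecMulVec_mul_vecMulVec, hfg, zero_smul, vecMulVec_zero]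
  have e8 : vecMulVec g g * vecMulVec f f = 0 := by
    rw [vecMulVec_mul_vecMulVec, hgf, zero_smul, vecMulVec_zero]
  constructor
  · simp only [P, transpose_sub, transpose_smul, hsym, transpose_vecMulVec]
  · simp only [P, sub_mul, mul_sub, smul_mul_assoc, mul_smul_comm, hXX, e1, e2, e3, e4, e5, e6, e7, e8,
      smul_zero, smul_smul, sub_zero, zero_sub, sub_neg_eq_add]
    ext i j
    simp only [Matrix.sub_apply, Matrix.add_apply, Matrix.smul_apply, smul_eq_mul]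
    norm_num
    ring

end Vale.Agent.Lib.P052
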