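import Mathlib
import Vale.Agent.Lib.P052.Checked
import Vale.Agent.Lib.P052.Bits
import Vale.Agent.Lib.P052.Gram
import Vale.Agent.Lib.P052.Proj

namespace Vale.Agent.Lib.P052

open Matrix Finset

set_option exponentiation.threshold 4000

/-! ### Reading the checks -/

theorem bool_rec_false_iff {x : Bool} {y : Bool} (h : Bool.rec false y x = true) :
    x = true ∧ y = true := by
  cases x with
  | false => exact absurd h (by simp)
  | true => exact ⟨rfl, h⟩

theorem srgRow_parts {a : ℕ} (h : srgRow a = true) :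
    Nat.land (rowN a) mask416 = rowN a ∧
    ∀ b, b < 416 → (rowN a &&& rowN b) % 511 = srgEntry a b := by
  have h' := bool_rec_false_iff h
  refine ⟨Nat.eq_of_beq_eq_true h'.1, ?_⟩
  intro b hb
  exact Nat.eq_of_beq_eq_true (allBelow_spec h'.2 b hb)

theorem srgEntry_eq (a b : ℕ) : srgEntry a b = if a = b then 100 else if adjB a b then 36 else 20 := by
  unfold srgEntry
  by_cases hab : a = b
  · subst hab
    have : Nat.beq a a = true := Nat.beq_refl a
    simp [this]
  · have : Nat.beq a b = false := by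
      cases hb : Nat.beq a b with
      | false => rfl
      | true => exact absurd (Nat.eq_of_beq_eq_true hb) hab
    simp only [this, if_neg hab]
    cases adjB a b <;> rfl

theorem rowN_stride {a : ℕ} (ha : a < 416) {i : ℕ} (h : (rowN a).testBit i = true) : 9 ∣ i := by
  have h1 := (srgRow_parts (srg_all a ha)).1
  have h2 : (rowN a &&& mask416).testBit i = true := by
    have : rowN a &&& mask416 = Nat.land (rowN a) mask416 := rfl
    rw [this, h1]; exact h
  rw [Nat.testBit_land] at h2
  have h3 : mask416.testBit i = true := by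
    simp only [Bool.and_eq_true] at h2
    exact h2.2
  have h4 : strideMask 416 = mask416 := rfl
  rw [← h4, testBit_strideMask] at h3
  exact (of_decide_eq_true h3).1

/-- the number of common neighbours -/
theorem common_count {a b : ℕ} (ha : a < 416) (hb : b < 416) :
    ∑ c ∈ Finset.range 416, (adjB a c && adjB b c).toNat =
      if a = b then 100 else if adjB a b then 36 else 20 := by
  have h1 := (srgRow_parts (srg_all a ha)).2 b hb
  rw [srgEntry_eq] at h1
  rw [← h1]
  symm
  have hlt : rowN a &&& rowN b < 2 ^ 3744 := lt_of_le_of_lt Nat.and_le_left (rowN_lt a)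
  have hs : ∀ i, (rowN a &&& rowN b).testBit i = true → 9 ∣ i := by
    intro i hi
    rw [Nat.testBit_land] at hi
    simp only [Bool.and_eq_true] at hi
    exact rowN_stride ha hi.1
  rw [popcount_eq _ hlt hs]
  apply Finset.sum_congr rfl
  intro c _
  rw [Nat.testBit_land]
  rfl

/-- neighbours in an arbitrary mask with bits in positions divisible by 9 -/
theorem mask_count {a : ℕ} (ha : a < 416) (m : ℕ) :
    (rowN a &&& m) % 511 = ∑ c ∈ Finset.range 416, (adjB a c && m.testBit (9 * c)).toNat := by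
  have hlt : rowN a &&& m < 2 ^ 3744 := lt_of_le_of_lt Nat.and_le_left (rowN_lt a)
  have hs : ∀ i, (rowN a &&& m).testBit i = true → 9 ∣ i := by
    intro i hi
    rw [Nat.testBit_land] at hi
    simp only [Bool.and_eq_true] at hi
    exact rowN_stride ha hi.1
  rw [popcount_eq _ hlt hs]
  apply Finset.sum_congr rfl
  intro c _
  rw [Nat.testBit_land]
  rfl

theorem symRow_parts {a : ℕ} (h : symRow a = true) :
    adjB a a = false ∧ ∀ b, b < 416 → adjB a b = adjB b a := by
  unfold symRow at h
  cases haa : adjB a a with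
  | true => rw [haa] at h; exact absurd h (by simp)
  | false =>
    rw [haa] at h
    refine ⟨rfl, ?_⟩
    intro b hb
    have := allBelow_spec h b hb
    cases h1 : adjB a b <;> cases h2 : adjB b a <;> simp_all

theorem adjB_symm {a b : ℕ} (ha : a < 416) (hb : b < 416) : adjB a b = adjB b a :=
  (symRow_parts (sym_all a ha)).2 b hb

theorem adjB_irrefl {a : ℕ} (ha : a < 416) : adjB a a = false :=
  (symRow_parts (sym_all a ha)).1

theorem adjC_eq {a b : ℕ} (ha : a < 321) (hb : b < 321) : adjC a b = adjB a b := by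
  have := allBelow_spec (compact_all a ha) b hb
  cases h1 : adjC a b <;> cases h2 : adjB a b <;> simp_all

theorem blockRow_parts {a : ℕ} (ha : a < 416) :
    (rowN a &&& blockMask 320 32) % 511 = n1 a ∧
    (rowN a &&& blockMask 352 32) % 511 = n2 a ∧
    (rowN a &&& blockMask 384 32) % 511 = n3 a := by
  have h := allRange_spec block_ok a (by omega) (by omega)
  unfold blockRow at h
  simp only [Bool.and_eq_true, beq_iff_eq] at h
  exact ⟨h.1.1, h.1.2, h.2⟩

/-! ### The matrices -/

/-- the blocks as Boolean functions -/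
def b1 (c : ℕ) : Bool := decide (320 ≤ c ∧ c < 352)
def b2 (c : ℕ) : Bool := decide (352 ≤ c ∧ c < 384)
def b3 (c : ℕ) : Bool := decide (384 ≤ c ∧ c < 416)

theorem block1_count {a : ℕ} (ha : a < 416) :
    ∑ c ∈ Finset.range 416, (adjB a c && b1 c).toNat = n1 a := by
  rw [← (blockRow_parts ha).1, mask_count ha]
  apply Finset.sum_congr rfl
  intro c _
  rw [testBit_blockMask]
  rfl

theorem block2_count {a : ℕ} (ha : a < 416) :
    ∑ c ∈ Finset.range 416, (adjB a c && b2 c).toNat = n2 a := by
  rw [← (blockRow_parts ha).2.1, mask_count ha]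
  apply Finset.sum_congr rfl
  intro c _
  rw [testBit_blockMask]
  rfl

theorem block3_count {a : ℕ} (ha : a < 416) :
    ∑ c ∈ Finset.range 416, (adjB a c && b3 c).toNat = n3 a := by
  rw [← (blockRow_parts ha).2.2, mask_count ha]
  apply Finset.sum_congr rfl
  intro c _
  rw [testBit_blockMask]
  rfl

abbrev V := Fin 416

/-- the adjacency matrix -/
noncomputable def A : Matrix V V ℝ := fun a b => if adjB a b then 1 else 0

/-- the all-one matrix -/
noncomputable def J : Matrix V V ℝ := fun _ _ => 1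

theorem A_symm (a b : V) : A a b = A b a := by
  unfold A
  rw [adjB_symm a.2 b.2]

theorem A_diag (a : V) : A a a = 0 := by
  unfold A
  simp [adjB_irrefl a.2]

theorem A_mul_A_apply (a b : V) :
    (A * A) a b = if a = b then 100 else if adjB a b then 36 else 20 := by
  rw [Matrix.mul_apply]
  have h1 : ∀ c : V, A a c * A c b = (((adjB a c && adjB b c).toNat : ℕ) : ℝ) := by
    intro c
    rw [A_symm c b]
    unfold A
    cases adjB a c <;> cases adjB b c <;> simp
  simp only [h1]
  have h2 := Fin.sum_univ_eq_sum_range (fun c => (((adjB a c && adjB b c).toNat : ℕ) : ℝ)) 416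
  rw [h2, ← Nat.cast_sum, common_count a.2 b.2]
  by_cases hab : a = b
  · subst hab
    simp
  · have : (a : ℕ) ≠ b := fun h => hab (Fin.ext h)
    simp only [if_neg this, if_neg hab]
    cases adjB a b <;> simp

theorem A_sq : A * A = (16 : ℝ) • A + (80 : ℝ) • (1 : Matrix V V ℝ) + (20 : ℝ) • J := by
  ext a b
  rw [A_mul_A_apply]
  simp only [Matrix.add_apply, Matrix.smul_apply, smul_eq_mul, J, Matrix.one_apply]
  by_cases hab : a = b
  · subst hab
    have := A_diag a
    simp [this]
    norm_num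
  · simp only [if_neg hab]
    unfold A
    cases adjB a b <;> simp <;> norm_num

theorem row_sum (a : V) : ∑ c : V, A a c = 100 := by
  have h := A_mul_A_apply a a
  rw [Matrix.mul_apply] at h
  simp only [if_true] at h
  rw [← h]
  apply Finset.sum_congr rfl
  intro c _
  rw [A_symm c a]
  unfold A
  cases adjB a c <;> simp

theorem A_mul_J : A * J = (100 : ℝ) • J := by
  ext a b
  rw [Matrix.mul_apply]
  simp only [J, mul_one, Matrix.smul_apply, smul_eq_mul]
  rw [row_sum]

theorem J_mul_A : J * A = (100 : ℝ) • J := by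
  ext a b
  rw [Matrix.mul_apply]
  simp only [J, one_mul, Matrix.smul_apply, smul_eq_mul]
  have : ∑ c : V, A c b = ∑ c : V, A b c :=
    Finset.sum_congr rfl fun c _ => A_symm c b
  rw [this, row_sum]
  norm_num

theorem J_mul_J : J * J = (416 : ℝ) • J := by
  ext a b
  rw [Matrix.mul_apply]
  simp [J]

theorem A_transpose : Aᵀ = A := by
  ext a b
  exact A_symm b a

theorem J_transpose : Jᵀ = J := rfl

/-- `X = 4 A + 16 I - J`, which is 96 times the projection onto the eigenspace of dimension 65 -/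
noncomputable def X : Matrix V V ℝ := (4 : ℝ) • A + (16 : ℝ) • (1 : Matrix V V ℝ) - J

theorem X_transpose : Xᵀ = X := by
  unfold X
  simp [Matrix.transpose_sub, Matrix.transpose_add, Matrix.transpose_smul, A_transpose, J_transpose]

theorem X_sq : X * X = (96 : ℝ) • X := by
  unfold X
  simp only [sub_mul, mul_sub, add_mul, mul_add, smul_mul_assoc, mul_smul_comm, Matrix.one_mul,
    Matrix.mul_one, A_sq, A_mul_J, J_mul_A, J_mul_J, smul_add, smul_smul, smul_sub]
  ext i j
  simp only [Matrix.sub_apply, Matrix.add_apply, Matrix.smul_apply, smul_eq_mul]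
  ring

/-- the first eigenvector -/
noncomputable def f1 : V → ℝ := fun c => ((b1 c).toNat : ℝ) - ((b2 c).toNat : ℝ)
/-- the second eigenvector -/
noncomputable def f2 : V → ℝ := fun c => ((b1 c).toNat : ℝ) + ((b2 c).toNat : ℝ) - 2 * ((b3 c).toNat : ℝ)

theorem A_block (b : ℕ → Bool) (a : V) :
    ∑ c : V, A a c * ((b c).toNat : ℝ) =
      ((∑ c ∈ Finset.range 416, (adjB a c && b c).toNat : ℕ) : ℝ) := by
  have h1 : ∀ c : V, A a c * ((b c).toNat : ℝ) = (((adjB a c && b c).toNat : ℕ) : ℝ) := by
    intro c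
    unfold A
    cases adjB a c <;> cases b c <;> simp
  simp only [h1]
  rw [Fin.sum_univ_eq_sum_range (fun c => (((adjB a c && b c).toNat : ℕ) : ℝ)) 416, Nat.cast_sum]

theorem n_values (a : ℕ) (ha : a < 416) :
    ((n1 a : ℕ) : ℝ) - (n2 a : ℕ) = 20 * (((b1 a).toNat : ℝ) - ((b2 a).toNat : ℝ)) ∧
    ((n1 a : ℕ) : ℝ) + (n2 a : ℕ) - 2 * (n3 a : ℕ) =
      20 * (((b1 a).toNat : ℝ) + ((b2 a).toNat : ℝ) - 2 * ((b3 a).toNat : ℝ)) := by
  unfold n1 n2 n3 b1 b2 b3
  rcases lt_or_ge a 320 with h | h
  · have h1 : ¬ (320 ≤ a ∧ a < 352) := by omega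
    have h2 : ¬ (352 ≤ a ∧ a < 384) := by omega
    have h3 : ¬ (384 ≤ a ∧ a < 416) := by omega
    simp [h, h1, h2, h3]
    norm_num
  rcases lt_or_ge a 352 with h' | h'
  · have h0 : ¬ a < 320 := by omega
    have h1 : (320 ≤ a ∧ a < 352) := by omega
    have h2 : ¬ (352 ≤ a ∧ a < 384) := by omega
    have h3 : ¬ (384 ≤ a ∧ a < 416) := by omega
    have h4 : a < 384 := by omega
    simp [h0, h', h1, h2, h3, h4]
  rcases lt_or_ge a 384 with h'' | h''
  · have h0 : ¬ a < 320 := by omega
    have h0' : ¬ a < 352 := by omega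
    have h1 : ¬ (320 ≤ a ∧ a < 352) := by omega
    have h2 : (352 ≤ a ∧ a < 384) := by omega
    have h3 : ¬ (384 ≤ a ∧ a < 416) := by omega
    simp [h0, h0', h'', h1, h2, h3]
  · have h0 : ¬ a < 320 := by omega
    have h0' : ¬ a < 352 := by omega
    have h0'' : ¬ a < 384 := by omega
    have h1 : ¬ (320 ≤ a ∧ a < 352) := by omega
    have h2 : ¬ (352 ≤ a ∧ a < 384) := by omega
    have h3 : (384 ≤ a ∧ a < 416) := by omega
    simp [h0, h0', h0'', h1, h2, h3]
    norm_num

theorem A_f1 : A *ᵥ f1 = (20 : ℝ) • f1 := by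
  ext a
  simp only [Matrix.mulVec, dotProduct, f1, mul_sub, Pi.smul_apply, smul_eq_mul]
  rw [Finset.sum_sub_distrib, A_block b1, A_block b2, block1_count a.2, block2_count a.2]
  linarith [(n_values a a.2).1]

theorem A_f2 : A *ᵥ f2 = (20 : ℝ) • f2 := by
  ext a
  simp only [Matrix.mulVec, dotProduct, f2, mul_sub, mul_add, Pi.smul_apply, smul_eq_mul]
  rw [Finset.sum_sub_distrib, Finset.sum_add_distrib, A_block b1, A_block b2]
  have h3 : ∑ c : V, A a c * (2 * ((b3 c).toNat : ℝ)) = 2 * ∑ c : V, A a c * ((b3 c).toNat : ℝ) := by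
    rw [Finset.mul_sum]
    apply Finset.sum_congr rfl
    intro c _
    ring
  rw [h3, A_block b3, block1_count a.2, block2_count a.2, block3_count a.2]
  linarith [(n_values a a.2).2]

/-- integer versions of the eigenvectors, used for counting -/
def f1Z (c : ℕ) : ℤ := ((b1 c).toNat : ℤ) - ((b2 c).toNat : ℤ)
def f2Z (c : ℕ) : ℤ := ((b1 c).toNat : ℤ) + ((b2 c).toNat : ℤ) - 2 * ((b3 c).toNat : ℤ)

theorem f1_eq (c : V) : f1 c = ((f1Z c : ℤ) : ℝ) := by
  simp [f1, f1Z]

theorem f2_eq (c : V) : f2 c = ((f2Z c : ℤ) : ℝ) := by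
  simp [f2, f2Z]

theorem sum_cast (g : ℕ → ℤ) (v : ℤ) (h : ∑ c ∈ Finset.range 416, g c = v) :
    ∑ c : V, ((g c : ℤ) : ℝ) = (v : ℝ) := by
  rw [Fin.sum_univ_eq_sum_range (fun c => ((g c : ℤ) : ℝ)) 416, ← Int.cast_sum, h]

theorem sum_f1 : ∑ c : V, f1 c = 0 := by
  have h : ∑ c ∈ Finset.range 416, f1Z c = 0 := by decide +kernel
  have := sum_cast _ _ h
  simpa [f1_eq] using this

theorem sum_f2 : ∑ c : V, f2 c = 0 := by
  have h : ∑ c ∈ Finset.range 416, f2Z c = 0 := by decide +kernel
  have := sum_cast _ _ h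
  simpa [f2_eq] using this

theorem dot_f1f1 : f1 ⬝ᵥ f1 = 64 := by
  have h : ∑ c ∈ Finset.range 416, f1Z c * f1Z c = 64 := by decide +kernel
  have := sum_cast (fun c => f1Z c * f1Z c) _ h
  simpa [dotProduct, f1_eq] using this

theorem dot_f2f2 : f2 ⬝ᵥ f2 = 192 := by
  have h : ∑ c ∈ Finset.range 416, f2Z c * f2Z c = 192 := by decide +kernel
  have := sum_cast (fun c => f2Z c * f2Z c) _ h
  simpa [dotProduct, f2_eq] using this

theorem dot_f1f2 : f1 ⬝ᵥ f2 = 0 := by
  have h : ∑ c ∈ Finset.range 416, f1Z c * f2Z c = 0 := by decide +kernel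
  have := sum_cast (fun c => f1Z c * f2Z c) _ h
  simpa [dotProduct, f1_eq, f2_eq] using this

theorem J_mulVec (f : V → ℝ) (hf : ∑ c : V, f c = 0) : J *ᵥ f = 0 := by
  ext a
  simp [Matrix.mulVec, dotProduct, J, hf]

theorem X_f1 : X *ᵥ f1 = (96 : ℝ) • f1 := by
  unfold X
  rw [Matrix.sub_mulVec, Matrix.add_mulVec, Matrix.smul_mulVec, Matrix.smul_mulVec, A_f1,
    Matrix.one_mulVec, J_mulVec _ sum_f1]
  ext a
  simp only [Pi.sub_apply, Pi.add_apply, Pi.smul_apply, smul_eq_mul, Pi.zero_apply]
  ring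

theorem X_f2 : X *ᵥ f2 = (96 : ℝ) • f2 := by
  unfold X
  rw [Matrix.sub_mulVec, Matrix.add_mulVec, Matrix.smul_mulVec, Matrix.smul_mulVec, A_f2,
    Matrix.one_mulVec, J_mulVec _ sum_f2]
  ext a
  simp only [Pi.sub_apply, Pi.add_apply, Pi.smul_apply, smul_eq_mul, Pi.zero_apply]
  ring

/-- the projection onto a subspace of dimension 63 -/
noncomputable def P : Matrix V V ℝ :=
  (1 / 96 : ℝ) • X - (1 / 64 : ℝ) • vecMulVec f1 f1 - (1 / 192 : ℝ) • vecMulVec f2 f2

theorem P_props : Pᵀ = P ∧ P * P = P :=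
  proj_identity X f1 f2 X_transpose X_sq X_f1 X_f2 dot_f1f1 dot_f2f2 dot_f1f2

theorem P_trace : P.trace = ((63 : ℕ) : ℝ) := by
  unfold P
  rw [Matrix.trace_sub, Matrix.trace_sub, Matrix.trace_smul, Matrix.trace_smul, Matrix.trace_smul,
    Matrix.trace_vecMulVec, Matrix.trace_vecMulVec, dot_f1f1, dot_f2f2]
  have : X.trace = 6240 := by
    unfold X
    rw [Matrix.trace_sub, Matrix.trace_add, Matrix.trace_smul, Matrix.trace_smul, Matrix.trace_one]
    have h1 : A.trace = 0 := by
      unfold Matrix.trace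
      simp [Matrix.diag, A_diag]
    have h2 : J.trace = 416 := by
      unfold Matrix.trace
      simp [Matrix.diag, J]
    rw [h1, h2]
    simp
    norm_num
  rw [this]
  simp only [smul_eq_mul]
  norm_num

theorem P_apply (a b : V) : P a b =
    (1 / 96 : ℝ) * (4 * A a b + 16 * (if a = b then 1 else 0) - 1)
      - (1 / 64) * (f1 a * f1 b) - (1 / 192) * (f2 a * f2 b) := by
  unfold P X
  simp [Matrix.sub_apply, Matrix.add_apply, Matrix.smul_apply, Matrix.one_apply, J, vecMulVec_apply]

theorem f_low {a : V} (h : a.val < 320) : f1 a = 0 ∧ f2 a = 0 := by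
  have e1 : b1 a.val = false := decide_eq_false (by omega)
  have e2 : b2 a.val = false := decide_eq_false (by omega)
  have e3 : b3 a.val = false := decide_eq_false (by omega)
  simp [f1, f2, e1, e2, e3]

theorem f_v {a : V} (h : a.val = 320) : f1 a = 1 ∧ f2 a = 1 := by
  have e1 : b1 a.val = true := decide_eq_true (by omega)
  have e2 : b2 a.val = false := decide_eq_false (by omega)
  have e3 : b3 a.val = false := decide_eq_false (by omega)
  simp [f1, f2, e1, e2, e3]

end Vale.Agent.Lib.P052
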